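import Vale.Agent.P281.H180.TM.ESpec

/-!
# P281, project T-M, block T0, literal E4a: almost all slices are countable

A subset of a countable union of thin sets of `ℂ^(q+1)` has countable slices over the complement of a
set of `ℂ^q` which is also contained in a countable union of thin sets. Locally the thin set is
contained in `{g = 0}` with `g` analytic on a ball and `g(b₁, s₁) ≠ 0`; off `{b | g(b, s₁) = 0}` the
function `g(b, ·)` has isolated zeros; Lindelöf.
-/

open Set Filter Metric Vale.Agent.P281 Vale.Agent.P281.J Vale.Agent.P281.H713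
open Vale.Agent.P281.H64 (Cm)
open Vale.Agent.P281.H303.Gen (pnt pnt_pr_lst)
open Vale.Agent.P281.H64.Thin (IsThinSet)
open Vale.Agent.P281.H150.Gen (pr lst SThin thin_of_isClosed holAt_of_analyticAt
  analyticAt_of_holAt)
open scoped Topology ContDiff Manifold

noncomputable section

namespace Vale.Agent.P281.H48.TM

/-- The zeros of an analytic function on a disc, not identically zero, are countable. -/
theorem countable_zeros {u : ℂ → ℂ} {c : ℂ} {ρ : ℝ} (hu : ∀ z ∈ ball c ρ, AnalyticAt ℂ u z)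
    {s₁ : ℂ} (h1 : s₁ ∈ ball c ρ) (h2 : u s₁ ≠ 0) :
    {s | s ∈ ball c ρ ∧ u s = 0}.Countable := by
  set T : Set ℂ := {s | s ∈ ball c ρ ∧ u s = 0} with hT
  have hloc : ∀ z ∈ T, ∃ N ∈ 𝓝 z, T ∩ N ⊆ {z} := by
    intro z hz
    rcases (hu z hz.1).eventually_eq_zero_or_eventually_ne_zero with h | h
    · exfalso
      have hon : AnalyticOnNhd ℂ u (ball c ρ) := hu
      exact h2 (hon.eqOn_zero_of_preconnected_of_eventuallyEq_zero
        (convex_ball c ρ).isPreconnected hz.1 h h1)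
    · rw [eventually_nhdsWithin_iff] at h
      refine ⟨_, h, ?_⟩
      rintro w ⟨hw1, hw2⟩
      by_contra hne
      exact hw2 hne hw1.2
  choose! N hN hS using hloc
  obtain ⟨t, ht, htc, hcov⟩ := TopologicalSpace.countable_cover_nhdsWithin
    (f := N) (s := T) (fun x hx => mem_nhdsWithin_of_mem_nhds (hN x hx))
  refine htc.mono fun s hs => ?_
  obtain ⟨x, hx, hsx⟩ := mem_iUnion₂.1 (hcov hs)
  have h3 := hS x (ht hx) ⟨hs, hsx⟩
  rw [mem_singleton_iff] at h3
  rwa [h3]

/-- The zeros in a ball of an analytic function, not identically zero, are contained in a countable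
union of thin sets. -/
theorem sthin_zeros {q : ℕ} {h : Cm q → ℂ} {c : Cm q} {ρ : ℝ}
    (hh : ∀ z ∈ ball c ρ, AnalyticAt ℂ h z) {b₁ : Cm q} (h1 : b₁ ∈ ball c ρ) (h2 : h b₁ ≠ 0) :
    SThin (Cm q) {b | b ∈ ball c ρ ∧ h b = 0} := by
  have key : SThin (Cm q) ((id : Cm q → Cm q) '' {b | b ∈ ball c ρ ∧ h b = 0}) := by
    refine SThin.image_of_local fun z hz => ?_
    obtain ⟨r, hr, hrs⟩ := Metric.nhds_basis_closedBall.mem_iff.1 (isOpen_ball.mem_nhds hz.1)
    refine ⟨closedBall z r, closedBall_mem_nhds z hr, ?_⟩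
    refine SThin.of_thin (T := closedBall z r ∩ h ⁻¹' {0}) ?_ ?_
    · refine thin_of_isClosed ?_ ?_
      · have h3 : ContinuousOn h (closedBall z r) := fun w hw =>
          (hh w (hrs hw)).continuousAt.continuousWithinAt
        exact h3.preimage_isClosed_of_isClosed isClosed_closedBall isClosed_singleton
      · intro y hy
        refine ⟨h, holAt_of_analyticAt (hh y (hrs hy.1)), fun he => h2 ?_, ?_⟩
        · have hon : AnalyticOnNhd ℂ h (ball c ρ) := hh
          exact hon.eqOn_zero_of_preconnected_of_eventuallyEq_zero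
            (convex_ball c ρ).isPreconnected (hrs hy.1) he h1
        · exact Eventually.of_forall fun z hz => hz.2
    · rintro _ ⟨w, ⟨hw1, hw2⟩, rfl⟩
      exact ⟨hw2, hw1.2⟩
  rwa [image_id] at key

theorem analyticAt_pnt {q : ℕ} {E : Type} [NormedAddCommGroup E] [NormedSpace ℂ E]
    {β : E → Cm q} {σ : E → ℂ} {x : E} (hβ : AnalyticAt ℂ β x) (hσ : AnalyticAt ℂ σ x) :
    AnalyticAt ℂ (fun w => pnt (β w) (σ w)) x := by
  rw [analyticAt_pi_iff]
  intro i
  refine Fin.lastCases ?_ (fun j => ?_) i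
  · simpa [pnt] using hσ
  · have h1 := (analyticAt_pi_iff.1 hβ) j
    simpa [pnt] using h1

theorem slice_local {q : ℕ} {H : Set (Cm (q + 1))} (hH : IsThinSet (Cm (q + 1)) H)
    (y : Cm (q + 1)) :
    ∃ N ∈ 𝓝 y, ∃ S' : Set (Cm q), SThin (Cm q) S' ∧
      ∀ b ∉ S', {s : ℂ | pnt b s ∈ H ∩ N}.Countable := by
  obtain ⟨g, hg, hne, hs⟩ := hH.2 y
  have hga := analyticAt_of_holAt hg
  obtain ⟨ρ, hρ, hball⟩ := Metric.eventually_nhds_iff_ball.1 (hga.eventually_analyticAt.and hs)
  have hex : ∃ v₁ ∈ ball y ρ, g v₁ ≠ 0 := by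
    by_contra hcon
    push Not at hcon
    exact hne (Filter.eventually_of_mem (ball_mem_nhds y hρ) hcon)
  obtain ⟨v₁, hv₁, hgv₁⟩ := hex
  have hmem : ∀ (b : Cm q) (s : ℂ),
      pnt b s ∈ ball y ρ ↔ b ∈ ball (pr q y) ρ ∧ s ∈ ball (lst q y) ρ := by
    intro b s
    rw [mem_ball, mem_ball, mem_ball, dist_pi_lt_iff hρ, dist_pi_lt_iff hρ]
    constructor
    · intro h
      refine ⟨fun i => ?_, ?_⟩
      · simpa [pnt] using h i.castSucc
      · simpa [pnt, lst] using h (Fin.last q)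
    · rintro ⟨h1, h2⟩ i
      refine Fin.lastCases ?_ (fun j => ?_) i
      · simpa [pnt, lst] using h2
      · simpa [pnt] using h1 j
  have hv : pnt (pr q v₁) (lst q v₁) = v₁ := pnt_pr_lst v₁
  have hv' := (hmem (pr q v₁) (lst q v₁)).1 (by rwa [hv])
  refine ⟨ball y ρ, ball_mem_nhds y hρ,
    {b | b ∈ ball (pr q y) ρ ∧ g (pnt b (lst q v₁)) = 0}, ?_, ?_⟩
  · refine sthin_zeros (h := fun b => g (pnt b (lst q v₁))) (fun b hb => ?_) hv'.1 (by
      show g (pnt (pr q v₁) (lst q v₁)) ≠ 0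
      rwa [hv])
    exact AnalyticAt.fun_comp (g := g) (f := fun b => pnt b (lst q v₁))
      ((hball _ ((hmem b (lst q v₁)).2 ⟨hb, hv'.2⟩)).1) (analyticAt_pnt analyticAt_id
        analyticAt_const)
  · intro b hb
    by_cases hb1 : b ∈ ball (pr q y) ρ
    · have hb2 : g (pnt b (lst q v₁)) ≠ 0 := fun h => hb ⟨hb1, h⟩
      refine (countable_zeros (u := fun s => g (pnt b s)) (c := lst q y) (ρ := ρ)
        (fun s hs' => ?_) hv'.2 hb2).mono ?_
      · exact AnalyticAt.fun_comp (g := g) (f := fun s => pnt b s)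
          ((hball _ ((hmem b s).2 ⟨hb1, hs'⟩)).1) (analyticAt_pnt analyticAt_const
            analyticAt_id)
      · rintro s ⟨hs1, hs2⟩
        exact ⟨((hmem b s).1 hs2).2, (hball _ hs2).2 hs1⟩
    · have hemp : {s : ℂ | pnt b s ∈ H ∩ ball y ρ} = ∅ := by
        refine eq_empty_of_forall_notMem fun s hs' => ?_
        exact hb1 ((hmem b s).1 hs'.2).1
      rw [hemp]
      exact countable_empty

/-- **E4a**. -/
theorem e4a : H180.TM.SliceStmt := by
  intro q S hS
  obtain ⟨H, hH, hSH⟩ := hS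
  choose N hN S' hS' hc using fun k y => slice_local (hH k) y
  have hcov : ∀ k, ∃ t : Set (Cm (q + 1)), t.Countable ∧ ⋃ y ∈ t, N k y = univ := fun k =>
    TopologicalSpace.countable_cover_nhds (hN k)
  choose t htc ht using hcov
  refine ⟨⋃ k, ⋃ y : t k, S' k y, ?_, ?_⟩
  · refine SThin.iUnion fun k => ?_
    have := (htc k).to_subtype
    exact SThin.iUnion fun y => hS' k y
  · intro b hb
    have hsub : {s : ℂ | pnt b s ∈ S} ⊆ ⋃ k, ⋃ y ∈ t k, {s : ℂ | pnt b s ∈ H k ∩ N k y} := by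
      intro s hs
      obtain ⟨k, hk⟩ := mem_iUnion.1 (hSH hs)
      have h1 : pnt b s ∈ ⋃ y ∈ t k, N k y := by rw [ht k]; trivial
      obtain ⟨y, hy, hy'⟩ := mem_iUnion₂.1 h1
      exact mem_iUnion.2 ⟨k, mem_iUnion₂.2 ⟨y, hy, hk, hy'⟩⟩
    refine Countable.mono hsub (countable_iUnion fun k => (htc k).biUnion fun y hy => ?_)
    refine hc k y b fun hcon => hb ?_
    exact mem_iUnion.2 ⟨k, mem_iUnion.2 ⟨⟨y, hy⟩, hcon⟩⟩

end Vale.Agent.P281.H48.TM
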